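import Vale.Agent.P181.H280.Form

set_option autoImplicit false

namespace Vale.Agent.P181.H897

open Vale.Agent.P181 Vale.Agent.P181.H280 MvPolynomial

variable {n : ℕ}

/-- The multilinear map `y ↦ f (∏_p at p.1 (y p))` on the slots `Fin (n+1) × Fin 2`. -/
noncomputable def slotMap (f : MvPolynomial (Fin (n + 1) × Fin n) ℂ →ₗ[ℂ] ℂ) :
    MultilinearMap ℂ (fun _ : Fin (n + 1) × Fin 2 => MvPolynomial (Fin n) ℂ) ℂ :=
  f.compMultilinearMap ((MultilinearMap.mkPiAlgebra ℂ (Fin (n + 1) × Fin 2)
    (MvPolynomial (Fin (n + 1) × Fin n) ℂ)).compLinearMap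
      (fun p => (rename (R := ℂ) (Prod.mk p.1)).toLinearMap))

lemma slotMap_apply (f : MvPolynomial (Fin (n + 1) × Fin n) ℂ →ₗ[ℂ] ℂ)
    (y : Fin (n + 1) × Fin 2 → MvPolynomial (Fin n) ℂ) :
    slotMap f y = f (∏ p, rename (Prod.mk p.1) (y p)) := by
  simp [slotMap, LinearMap.compMultilinearMap_apply]

/-- A product over the slots `Fin (n+1) × Fin 2`, with the slots `(j+1, 0)` split off. -/
lemma prod_slots {B : Type*} [CommMonoid B] (g : Fin (n + 1) × Fin 2 → B) :
    ∏ p, g p = (∏ j : Fin n, g (j.succ, 0)) *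
      (g (0, 0) * g (0, 1) * ∏ j : Fin n, g (j.succ, 1)) := by
  rw [Fintype.prod_prod_type, Fin.prod_univ_succ]
  simp only [Fin.prod_univ_two]
  rw [Finset.prod_mul_distrib, mul_left_comm]

/-- An injective map `Fin n → Fin (n+1)` is the tail of a permutation. -/
lemma exists_perm_of_injective (r : Fin n → Fin (n + 1)) (hr : Function.Injective r) :
    ∃ σ : Equiv.Perm (Fin (n + 1)), ∀ j : Fin n, σ j.succ = r j := by
  have h1 : ∃ i₀, i₀ ∉ Set.range r := by
    by_contra hcon
    have h2 : Function.Surjective r := fun i => by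
      by_contra h
      exact hcon ⟨i, h⟩
    have h3 := Fintype.card_le_of_surjective r h2
    simp at h3
  obtain ⟨i₀, hi₀⟩ := h1
  have h2 : Function.Injective (Fin.cons i₀ r : Fin (n + 1) → Fin (n + 1)) :=
    Fin.cons_injective_iff.2 ⟨hi₀, hr⟩
  exact ⟨Equiv.ofBijective _ (Finite.injective_iff_bijective.1 h2), fun j => by simp⟩

/-- **[ONE]** The alternated first-order relation at a square. -/
theorem one (f : MvPolynomial (Fin (n + 1) × Fin n) ℂ →ₗ[ℂ] ℂ)
    (hs : ∀ (σ : Equiv.Perm (Fin (n + 1))) (P : MvPolynomial (Fin (n + 1) × Fin n) ℂ),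
      f (rename (Prod.map σ id) P) = f P)
    (hf : ∀ F ∈ linS n ^ (n + 1), f (∏ i : Fin (n + 1), rename (Prod.mk i) (F * F)) = 0)
    (F : MvPolynomial (Fin n) ℂ) (hF : F ∈ linS n ^ (n + 1))
    (B : Fin n → MvPolynomial (Fin n) ℂ) (hB : ∀ j, B j ∈ linS n ^ n) :
    f (Matrix.det (Matrix.of fun s t : Fin n =>
        (X (t.succ, s) : MvPolynomial (Fin (n + 1) × Fin n) ℂ)) *
      (rename (Prod.mk 0) (F * F) * ∏ j : Fin n, rename (Prod.mk j.succ) (B j * F))) = 0 := by
  classical
  by_cases hF0 : F = 0
  · simp [hF0]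
  -- the slots
  let y : Equiv.Perm (Fin n) → Fin (n + 1) × Fin 2 → MvPolynomial (Fin n) ℂ := fun τ p =>
    Fin.cases F (fun j => if p.2 = 0 then X (τ j) * B j else F) p.1
  have y0 : ∀ τ k, y τ (0, k) = F := fun τ k => rfl
  have y1 : ∀ τ (j : Fin n), y τ (j.succ, 0) = X (τ j) * B j := fun τ j => by simp [y]
  have y2 : ∀ τ (j : Fin n), y τ (j.succ, 1) = F := fun τ j => by simp [y]
  have hy : ∀ τ p, y τ p ∈ linS n ^ (n + 1) := by
    rintro τ ⟨i, k⟩
    refine Fin.cases ?_ (fun j => ?_) i
    · rw [y0]; exact hF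
    · fin_cases k
      · show y τ (j.succ, 0) ∈ _
        rw [y1, pow_succ']
        exact Submodule.mul_mem_mul (Submodule.subset_span ⟨τ j, rfl⟩) (hB j)
      · show y τ (j.succ, 1) ∈ _
        rw [y2]; exact hF
  have hpol : ∀ τ, ∑ π : Equiv.Perm (Fin (n + 1) × Fin 2), slotMap f (fun p => y τ (π p)) = 0 := by
    intro τ
    apply polar (slotMap f) (linS n ^ (n + 1)) _ (y τ) (hy τ)
    intro G hG
    rw [slotMap_apply, ← hf G hG, Fintype.prod_prod_type]
    congr 1
    apply Finset.prod_congr rfl
    intro i _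
    rw [Fin.prod_univ_two, map_mul]
  set T := f (Matrix.det (Matrix.of fun s t : Fin n =>
        (X (t.succ, s) : MvPolynomial (Fin (n + 1) × Fin n) ℂ)) *
      (rename (Prod.mk 0) (F * F) * ∏ j : Fin n, rename (Prod.mk j.succ) (B j * F))) with hT
  -- the placement of the slots
  have hmain : ∀ π : Equiv.Perm (Fin (n + 1) × Fin 2),
      ∑ τ : Equiv.Perm (Fin n), ((Equiv.Perm.sign τ : ℤ) : ℂ) *
        slotMap f (fun p => y τ (π p)) =
      if Function.Injective (fun j : Fin n => (π.symm (j.succ, 0)).1) then T else 0 := by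
    intro π
    set ρ : Fin (n + 1) × Fin 2 → Fin (n + 1) := fun p => (π.symm p).1 with hρ
    set r : Fin n → Fin (n + 1) := fun j => ρ (j.succ, 0) with hr
    set W : MvPolynomial (Fin (n + 1) × Fin n) ℂ :=
      (∏ j : Fin n, rename (Prod.mk (r j)) (B j)) *
      (rename (Prod.mk (ρ (0, 0))) F * rename (Prod.mk (ρ (0, 1))) F *
        ∏ j : Fin n, rename (Prod.mk (ρ (j.succ, 1))) F) with hW
    have h1 : ∀ τ : Equiv.Perm (Fin n), slotMap f (fun p => y τ (π p)) =
        f ((∏ j : Fin n, X (r j, τ j)) * W) := by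
      intro τ
      rw [slotMap_apply]
      congr 1
      have h2 : ∏ p, rename (Prod.mk p.1) (y τ (π p)) =
          ∏ p, rename (Prod.mk (ρ p)) (y τ p) := by
        rw [← Equiv.prod_comp π (fun p => rename (Prod.mk (ρ p)) (y τ p))]
        apply Finset.prod_congr rfl
        intro p _
        simp only [hρ, Equiv.symm_apply_apply]
      rw [h2, prod_slots]
      simp only [y0, y1, y2, map_mul, rename_X, Finset.prod_mul_distrib, hW]
      rw [mul_assoc]
    have h3 : ∑ τ : Equiv.Perm (Fin n), ((Equiv.Perm.sign τ : ℤ) : ℂ) *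
        slotMap f (fun p => y τ (π p)) =
        f (Matrix.det (Matrix.of fun s t : Fin n =>
          (X (r t, s) : MvPolynomial (Fin (n + 1) × Fin n) ℂ)) * W) := by
      rw [Matrix.det_apply, Finset.sum_mul, map_sum]
      apply Finset.sum_congr rfl
      intro τ _
      rw [h1, smul_mul_assoc]
      simp only [Matrix.of_apply]
      rcases Int.units_eq_one_or (Equiv.Perm.sign τ) with h | h <;> rw [h] <;> simp
    rw [h3]
    by_cases hinj : Function.Injective r
    · have hinj' : Function.Injective (fun j : Fin n => (π.symm (j.succ, 0)).1) := hinj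
      rw [if_pos hinj']
      obtain ⟨σ, hσ⟩ := exists_perm_of_injective r hinj
      have hren : ∀ (i : Fin (n + 1)) (P : MvPolynomial (Fin n) ℂ),
          rename (Prod.map σ id) (rename (Prod.mk i) P) = rename (Prod.mk (σ i)) P := by
        intro i P
        rw [rename_rename]
        rfl
      have hne : ∀ i : Fin (n + 1), rename (Prod.mk i) F ≠ 0 := by
        intro i h0
        apply hF0
        apply rename_injective (Prod.mk i) (Prod.mk_right_injective i)
        rw [h0, map_zero]
      have hWW : W = rename (Prod.mk (σ 0)) (F * F) *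
          ∏ j : Fin n, rename (Prod.mk (r j)) (B j * F) := by
        have h4 : ∏ p, rename (Prod.mk (ρ p)) F =
            ∏ i : Fin (n + 1), (rename (Prod.mk (σ i)) F * rename (Prod.mk (σ i)) F) := by
          rw [← Equiv.prod_comp π (fun p => rename (Prod.mk (ρ p)) F)]
          simp only [hρ, Equiv.symm_apply_apply]
          rw [Fintype.prod_prod_type]
          simp only [Fin.prod_univ_two]
          rw [← Equiv.prod_comp σ (fun i => rename (Prod.mk i) F * rename (Prod.mk i) F)]
        rw [prod_slots, Fin.prod_univ_succ] at h4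
        simp only [hσ] at h4
        rw [Finset.prod_mul_distrib] at h4
        have h5 : (∏ j : Fin n, rename (Prod.mk (r j)) F) ≠ 0 :=
          Finset.prod_ne_zero_iff.2 (fun j _ => hne _)
        have h6 : rename (Prod.mk (ρ (0, 0))) F * rename (Prod.mk (ρ (0, 1))) F *
            ∏ j : Fin n, rename (Prod.mk (ρ (j.succ, 1))) F =
            rename (Prod.mk (σ 0)) F * rename (Prod.mk (σ 0)) F *
              ∏ j : Fin n, rename (Prod.mk (r j)) F := by
          apply mul_left_cancel₀ h5
          rw [h4]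
          ring
        rw [hW, h6]
        simp only [map_mul, Finset.prod_mul_distrib]
        ring
      have key : rename (Prod.map σ id) (Matrix.det (Matrix.of fun s t : Fin n =>
          (X (t.succ, s) : MvPolynomial (Fin (n + 1) × Fin n) ℂ)) *
          (rename (Prod.mk 0) (F * F) * ∏ j : Fin n, rename (Prod.mk j.succ) (B j * F))) =
          Matrix.det (Matrix.of fun s t : Fin n =>
            (X (r t, s) : MvPolynomial (Fin (n + 1) × Fin n) ℂ)) * W := by
        rw [map_mul (rename (Prod.map σ id)), map_mul (rename (Prod.map σ id)) (rename _ _),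
          map_prod, hWW, hren, AlgHom.map_det]
        congr 1
        · congr 1
          ext1 s t
          simp [hσ]
        · congr 1
          apply Finset.prod_congr rfl
          intro j _
          rw [hren, hσ]
      rw [← key, hs σ]
    · have hinj' : ¬ Function.Injective (fun j : Fin n => (π.symm (j.succ, 0)).1) := hinj
      rw [if_neg hinj']
      rw [Function.not_injective_iff] at hinj
      obtain ⟨j, j', hjj, hne⟩ := hinj
      rw [Matrix.det_zero_of_column_eq hne, zero_mul, map_zero]
      intro s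
      simp only [Matrix.of_apply, hjj]
  have hsum : ∑ π : Equiv.Perm (Fin (n + 1) × Fin 2),
      (if Function.Injective (fun j : Fin n => (π.symm (j.succ, 0)).1) then T else 0) = 0 := by
    rw [← Finset.sum_congr rfl (fun π _ => hmain π), Finset.sum_comm]
    apply Finset.sum_eq_zero
    intro τ _
    rw [← Finset.mul_sum, hpol, mul_zero]
  rw [← Finset.sum_filter, Finset.sum_const, nsmul_eq_mul] at hsum
  refine (mul_eq_zero.1 hsum).resolve_left ?_
  intro h0
  rw [Nat.cast_eq_zero, Finset.card_eq_zero, Finset.filter_eq_empty_iff] at h0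
  refine h0 (Finset.mem_univ 1) (fun j j' h => ?_)
  exact Fin.succ_injective _ h

end Vale.Agent.P181.H897
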